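import Vale.Agent.P032.H815.Gen
import Vale.Agent.P032.H374.Side
import Vale.Agent.P032.S5.H410.Min
import Vale.Agent.P032.S5.H843.Core7

/-!
# P032: arcs of unit circles in a generic frame

Frame `Irr U T`, `Gen U`.

* `exists_irr_gen` : existence of `Irr`, `Mn` and `Gen` together,
* `ess_two`, `ess_line`, `pair_line` : the partners of a colour are in `T`; on an arc of `S(x)` they are `x` or `2 y - x`,
* `own_or` : an arc of `S(x)` with the list `{i, j}`, one of them in `Pal x`: one of `i`, `j` is in `T x`,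
* `half` : if moreover `i` is not in `T x`: `j` is in `T x`, `i` is in `T (2 w - x)` on the arc, all points outside `S(x)`
  are in `U j`, `j` is not in `Pal (2 w - x)`, and `i` occurs inside,
* `not_out` : a colour of an arc of `S(x)` which is in `T` at all points of `XX U` near `y` and not in `T x` does not occur
  outside `S(x)`.
-/

open Set Filter Topology Metric

noncomputable section

namespace Vale.Agent.P032.H815

open Vale.Agent.P032.Six Vale.Agent.P032.H374

/-- **Existence.** -/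
theorem exists_irr_gen {W : Fin 6 → Set ℂ} (hW : Sol W) : ∃ U T, Irr U T ∧ Mn U T ∧ Gen U := by
  obtain ⟨U, hM, hmax, hG⟩ := exists_gen hW
  obtain ⟨T, hT, hmin⟩ := S5.H410.exists_irr_min_of hM hmax
  refine ⟨U, T, hT, fun z hz s hs hne hcov => hne (hmin z hz s hs ?_), hG⟩
  filter_upwards [hcov] with w hw
  obtain ⟨i, his, hi⟩ := hw
  rcases hi with hi | ⟨hX, hi⟩
  · exact ⟨i, his, subset_closure hi, fun _ => hi⟩
  · exact ⟨i, his, hi, fun hcon => absurd hX hcon⟩

variable {k : ℕ} {U : Fin k → Set ℂ} {T : ℂ → Set (Fin k)}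

/-- near a point of `XX U` with at most two colours all points of `XX U` have both -/
theorem ev_two (h : Irr U T) {q : ℂ} {i j : Fin k} (hT : T q ⊆ {i, j}) :
    ∀ᶠ x in 𝓝 q, x ∈ XX U → i ∈ T x := by
  filter_upwards [h.nhd q] with x hx hX
  obtain ⟨l, hl, hlj⟩ := h.two hX j
  rcases hT (hx hl) with e | e
  · exact e ▸ hl
  · exact absurd e hlj

theorem ess_two (h : Irr U T) (g : Gen U) {q : ℂ} {i j : Fin k} (hq : q ∈ XX U) (hT : T q ⊆ {i, j}) :
    ∃ p, dist p q = 1 ∧ i ∈ T p := ess h g hq (ev_two h hT)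

/-- the partner of a colour of an arc -/
theorem ess_line (h : Irr U T) (g : Gen U) {x y : ℂ} (hy : dist y x = 1) (hX : y ∈ XX U) {i : Fin k}
    (hJ : ∀ᶠ w in 𝓝[sphere x 1] y, i ∈ Pal U w) (hi : ∀ᶠ w in 𝓝 y, w ∈ XX U → i ∈ T w) :
    i ∈ T x ∨ i ∈ T (2 * y - x) := by
  obtain ⟨p, hp, hip⟩ := ess h g hX hi
  rcases h.mx.partner_line hy hJ (by rw [dist_comm]; exact hp) (h.sub p hip) with e | e
  · exact Or.inl (e ▸ hip)
  · right
    rw [← e, add_sub_cancel_right]
    exact hip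

/-- the partner of a colour of a point with two colours, if one of them is at distance one -/
theorem pair_line (h : Irr U T) (g : Gen U) {x y : ℂ} {i j : Fin k} (hy : dist y x = 1) (hX : y ∈ XX U)
    (hT : T y ⊆ {i, j}) (hx : i ∈ Pal U x ∨ j ∈ Pal U x) : i ∈ T x ∨ i ∈ T (2 * y - x) := by
  obtain ⟨p, hp, hip⟩ := ess_two h g hX hT
  have hT' : T y ⊆ {j, i} := by rw [pair_comm]; exact hT
  obtain ⟨p', hp', hjp'⟩ := ess_two h g hX hT'
  rw [dist_comm] at hp hp'
  have key : j ∈ Pal U x → i ∈ T x ∨ i ∈ T (2 * y - x) := by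
    intro hj
    rcases h.lemmaB hT hp hy (h.sub p hip) hj with e | e
    · exact Or.inl (e ▸ hip)
    · right
      rw [← e, add_sub_cancel_left]
      exact hip
  rcases hx with hx | hx
  · rcases h.lemmaB hT hy hp' hx (h.sub p' hjp') with e | e
    · exact key (e ▸ h.sub p' hjp')
    · rcases h.lemmaB hT hp hp' (h.sub p hip) (h.sub p' hjp') with e' | e'
      · right
        rw [← e, add_sub_cancel_right, e']
        exact hip
      · left
        have : p = x := by linear_combination e' - e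
        exact this ▸ hip
  · exact key hx

/-- sweeping with the circle of radius two -/
theorem sweep_out (h : Mx U) {x y : ℂ} (hy : dist y x = 1) {i : Fin k}
    (hi : ∀ᶠ w in 𝓝[sphere x 1] y, i ∈ Pal U (2 * w - x)) : ∀ᶠ w in 𝓝 y, 1 < dist w x → i ∉ Pal U w := by
  obtain ⟨θ, hθ⟩ := exists_cis (u := y - x) (by rw [← dist_eq_norm]; exact hy)
  have hyθ : y = x + cis θ := by rw [← hθ]; ring
  rw [hyθ] at hi
  obtain ⟨η₀, hη₀, hJ⟩ := exists_arcs hi
  set η : ℝ := min η₀ 1 with hη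
  have hηp : 0 < η := lt_min hη₀ one_pos
  have hη1 : η ≤ 1 := min_le_right _ _
  have hηJ : ∀ q ∈ arcs x θ η, i ∈ Pal U (2 * q - x) := by
    rintro _ ⟨t, ht, rfl⟩
    refine hJ _ ⟨t, ⟨?_, ?_⟩, rfl⟩
    · linarith [ht.1, min_le_left η₀ 1]
    · linarith [ht.2, min_le_left η₀ 1]
  set Γ : Set ℂ := (fun q : ℂ => 2 * q - x) '' arcs x θ η with hΓ
  have hpre : IsPreconnected Γ := (arcs_preconnected x θ η).image _ (by fun_prop)
  have hcl : Γ ⊆ closure (U i) := by
    rintro _ ⟨q, hq, rfl⟩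
    exact hηJ q hq
  -- the far point
  set R : ℂ := 2 * (x + cis (θ + η / 2)) - x with hR
  have hRm : R ∈ Γ := ⟨_, mem_arcs (by rw [abs_of_pos (by linarith)]; linarith), rfl⟩
  have hRd : 1 < dist R y := by
    have h1 : ‖R - y‖ = ‖2 * cis (η / 2) - 1‖ := by
      have h2 : R - y = cis θ * (2 * cis (η / 2) - 1) := by
        rw [hR, hyθ, cis_add]; ring
      rw [h2, norm_mul, norm_cis, one_mul]
    rw [dist_eq_norm, h1]
    have h3 : ‖2 * cis (η / 2) - 1‖ ^ 2 = 5 - 4 * Real.cos (η / 2) := by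
      have h4 : Real.sin (η / 2) ^ 2 + Real.cos (η / 2) ^ 2 = 1 := Real.sin_sq_add_cos_sq _
      rw [← Complex.normSq_eq_norm_sq, Complex.normSq_apply]
      have h5 : (2 * cis (η / 2) - 1).re = 2 * Real.cos (η / 2) - 1 := by simp [cis_re]
      have h6 : (2 * cis (η / 2) - 1).im = 2 * Real.sin (η / 2) := by simp [cis_im]
      rw [h5, h6]
      nlinarith
    have h7 : Real.cos (η / 2) < 1 := by
      have := Real.cos_lt_cos_of_nonneg_of_le_pi (x := 0) (y := η / 2) le_rfl
        (by linarith [Real.pi_gt_three]) (by linarith)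
      rwa [Real.cos_zero] at this
    nlinarith [norm_nonneg (2 * cis (η / 2) - 1)]
  have e1 : ∀ᶠ w in 𝓝 y, 1 < dist R w :=
    (continuous_const.dist continuous_id).continuousAt.eventually_const_lt hRd
  have e2 : ∀ᶠ w in 𝓝 y, dist w x < 2 := by
    refine (continuous_id.dist continuous_const).continuousAt.eventually_lt_const ?_
    show dist y x < 2
    linarith
  have e3 : ∀ᶠ p in 𝓝 y, ∃ α : ℝ, |α| < η ∧ p = x + (dist p x : ℂ) * cis (θ + α) := by
    have := ev_dir (x := x) (θ := θ) one_pos hηp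
    rw [Complex.ofReal_one, one_mul, ← hyθ] at this
    exact this
  filter_upwards [e1, e2, e3] with w h1 h2 h3 hw
  obtain ⟨α, hα, hwα⟩ := h3
  have hq : 2 * (x + cis (θ + α)) - x ∈ Γ := ⟨_, mem_arcs hα, rfl⟩
  have hqw : dist (2 * (x + cis (θ + α)) - x) w < 1 := by
    have h4 : 2 * (x + cis (θ + α)) - x - w = ((2 - dist w x : ℝ) : ℂ) * cis (θ + α) := by
      push_cast
      linear_combination -hwα
    rw [dist_eq_norm, h4, norm_mul, norm_cis, mul_one, Complex.norm_real, Real.norm_of_nonneg (by linarith)]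
    linarith
  exact h.wlemma hpre hcl hq hRm hqw h1

/-- near a point of `S(x)` there are points outside -/
theorem freq_out {x y : ℂ} (hy : dist y x = 1) : ∃ᶠ w in 𝓝 y, 1 < dist w x := by
  have hcont : Tendsto (fun r : ℝ => y + r * (y - x)) (𝓝[>] 0) (𝓝 y) := by
    have : Continuous fun r : ℝ => y + r * (y - x) := by fun_prop
    have h2 := this.tendsto 0
    simp only [Complex.ofReal_zero, zero_mul, add_zero] at h2
    exact h2.mono_left nhdsWithin_le_nhds
  refine hcont.frequently (Eventually.frequently ?_)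
  filter_upwards [self_mem_nhdsWithin] with r hr
  have hr0 : (0 : ℝ) < r := hr
  have h1 : y + r * (y - x) - x = ((1 + r : ℝ) : ℂ) * (y - x) := by push_cast; ring
  have hn : ‖y - x‖ = 1 := by rw [← dist_eq_norm]; exact hy
  rw [dist_eq_norm, h1, norm_mul, hn, Complex.norm_real, Real.norm_of_nonneg (by linarith)]
  linarith

/-- on the circle of radius one about `2 y - x` there are, near `y`, points outside `S(x)` -/
theorem freq_touch {x y : ℂ} (hy : dist y x = 1) :
    ∃ᶠ w in 𝓝 y, 1 < dist w x ∧ dist w (2 * y - x) = 1 := by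
  have hn : ‖y - x‖ = 1 := by rw [← dist_eq_norm]; exact hy
  have hcont : Tendsto (fun r : ℝ => 2 * y - x - (y - x) * cis r) (𝓝[>] 0) (𝓝 y) := by
    have : Continuous fun r : ℝ => 2 * y - x - (y - x) * cis r := by
      have := continuous_cis
      fun_prop
    have h2 := this.tendsto 0
    have h3 : cis 0 = 1 := by simp [cis]
    rw [h3, mul_one, show 2 * y - x - (y - x) = y by ring] at h2
    exact h2.mono_left nhdsWithin_le_nhds
  refine hcont.frequently (Eventually.frequently ?_)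
  filter_upwards [Ioo_mem_nhdsGT (show (0 : ℝ) < 1 by norm_num)] with r hr
  constructor
  · have h2 : 2 * y - x - (y - x) * cis r - x = (y - x) * (2 - cis r) := by ring
    rw [dist_eq_norm, h2, norm_mul, hn, one_mul]
    have h3 : ‖2 - cis r‖ ^ 2 = 5 - 4 * Real.cos r := by
      have h4 : Real.sin r ^ 2 + Real.cos r ^ 2 = 1 := Real.sin_sq_add_cos_sq _
      rw [← Complex.normSq_eq_norm_sq, Complex.normSq_apply]
      have h5 : (2 - cis r).re = 2 - Real.cos r := by simp [cis_re]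
      have h6 : (2 - cis r).im = -Real.sin r := by simp [cis_im]
      rw [h5, h6]
      nlinarith
    have h7 : Real.cos r < 1 := by
      have := Real.cos_lt_cos_of_nonneg_of_le_pi (x := 0) (y := r) le_rfl
        (by linarith [Real.pi_gt_three, hr.2]) hr.1
      rwa [Real.cos_zero] at this
    nlinarith [norm_nonneg (2 - cis r)]
  · rw [dist_eq_norm, show 2 * y - x - (y - x) * cis r - (2 * y - x) = -((y - x) * cis r) by ring,
      norm_neg, norm_mul, hn, norm_cis, one_mul]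

/-- the arc form of `ess_line` -/
theorem line_arc (h : Irr U T) (g : Gen U) {x y : ℂ} {i : Fin k}
    (hX : ∀ᶠ w in 𝓝[sphere x 1] y, w ∈ XX U) (hJ : ∀ᶠ w in 𝓝[sphere x 1] y, i ∈ Pal U w)
    (hi : ∀ᶠ w in 𝓝 y, w ∈ XX U → i ∈ T w) (hx : i ∉ T x) :
    ∀ᶠ w in 𝓝[sphere x 1] y, i ∈ T (2 * w - x) := by
  filter_upwards [self_mem_nhdsWithin, hX, eventually_eventually_nhdsWithin.2 hJ,
    mem_nhdsWithin_of_mem_nhds (eventually_eventually_nhds.2 hi)] with w h1 h2 h3 h4
  exact (ess_line h g h1 h2 h3 h4).resolve_left hx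

/-- **a colour not in `T x` does not occur outside** -/
theorem not_out (h : Irr U T) (g : Gen U) {x y : ℂ} {i : Fin k} (hy : dist y x = 1)
    (hX : ∀ᶠ w in 𝓝[sphere x 1] y, w ∈ XX U) (hJ : ∀ᶠ w in 𝓝[sphere x 1] y, i ∈ Pal U w)
    (hi : ∀ᶠ w in 𝓝 y, w ∈ XX U → i ∈ T w) (hx : i ∉ T x) :
    ∀ᶠ w in 𝓝 y, 1 < dist w x → i ∉ Pal U w :=
  sweep_out h.mx hy ((line_arc h g hX hJ hi hx).mono fun _ hw => h.sub _ hw)

section pair

variable {x y : ℂ} {i j : Fin k}

theorem arc_XX (h : Irr U T) (hJ : ∀ᶠ w in 𝓝[sphere x 1] y, T w = {i, j})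
    (hP : i ∈ Pal U x ∨ j ∈ Pal U x) : ∀ᶠ w in 𝓝[sphere x 1] y, w ∈ XX U := by
  filter_upwards [self_mem_nhdsWithin, hJ] with w h1 h2
  rcases hP with hP | hP
  · exact h.mem_XX h1 (by rw [h2]; exact Or.inl rfl) hP
  · exact h.mem_XX h1 (by rw [h2]; exact Or.inr rfl) hP

/-- **a colour of an exact pair which is not in `T x`**: it is in `T` on the arc of radius two -/
theorem pair_arc (h : Irr U T) (g : Gen U) (hy : dist y x = 1)
    (hJ : ∀ᶠ w in 𝓝[sphere x 1] y, T w = {i, j}) (hP : i ∈ Pal U x ∨ j ∈ Pal U x) (hi : i ∉ T x) :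
    ∀ᶠ w in 𝓝[sphere x 1] y, i ∈ T (2 * w - x) := by
  have hTy : T y = {i, j} := hJ.self_of_nhdsWithin hy
  refine line_arc h g (arc_XX h hJ hP) (hJ.mono fun w hw => h.sub w ?_) (ev_two h hTy.subset) hi
  rw [hw]; exact Or.inl rfl

theorem pair_not_out (h : Irr U T) (g : Gen U) (hy : dist y x = 1)
    (hJ : ∀ᶠ w in 𝓝[sphere x 1] y, T w = {i, j}) (hP : i ∈ Pal U x ∨ j ∈ Pal U x) (hi : i ∉ T x) :
    ∀ᶠ w in 𝓝 y, 1 < dist w x → i ∉ Pal U w :=
  sweep_out h.mx hy ((pair_arc h g hy hJ hP hi).mono fun _ hw => h.sub _ hw)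

/-- **one of the colours of an exact pair is in `T x`** -/
theorem own_or (h : Irr U T) (g : Gen U) (hy : dist y x = 1)
    (hJ : ∀ᶠ w in 𝓝[sphere x 1] y, T w = {i, j}) (hP : i ∈ Pal U x ∨ j ∈ Pal U x) :
    i ∈ T x ∨ j ∈ T x := by
  by_contra hcon
  push Not at hcon
  have hJ' : ∀ᶠ w in 𝓝[sphere x 1] y, T w = {j, i} := hJ.mono fun w hw => by rw [hw, pair_comm]
  have hTy : T y = {i, j} := hJ.self_of_nhdsWithin hy
  obtain ⟨w, hw1, hw2, hw3, hw4⟩ := ((freq_out hy).and_eventually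
    ((pair_not_out h g hy hJ hP hcon.1).and ((pair_not_out h g hy hJ' hP.symm hcon.2).and (h.nhd y)))).exists
  obtain ⟨l, hl⟩ := h.ne w
  have hl' := hw4 hl
  rw [hTy] at hl'
  rcases hl' with e | e
  · exact hw2 hw1 (e ▸ h.sub w hl)
  · exact hw3 hw1 (e ▸ h.sub w hl)

/-- **half exact pairs** -/
theorem half (h : Irr U T) (g : Gen U) (hy : dist y x = 1)
    (hJ : ∀ᶠ w in 𝓝[sphere x 1] y, T w = {i, j}) (hP : i ∈ Pal U x ∨ j ∈ Pal U x) (hi : i ∉ T x) :
    j ∈ T x ∧ (∀ᶠ w in 𝓝[sphere x 1] y, i ∈ T (2 * w - x)) ∧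
      (∀ᶠ w in 𝓝 y, 1 < dist w x → T w = {j} ∧ w ∈ U j) ∧ j ∉ Pal U (2 * y - x) ∧
      ∃ᶠ w in 𝓝 y, dist w x < 1 ∧ T w = {i} := by
  have hTy : T y = {i, j} := hJ.self_of_nhdsWithin hy
  have hout : ∀ᶠ w in 𝓝 y, 1 < dist w x → T w = {j} ∧ w ∈ U j := by
    filter_upwards [pair_not_out h g hy hJ hP hi, h.nhd y] with w h1 h2 h3
    have h4 : T w ⊆ {j} := by
      intro l hl
      have hl' := h2 hl
      rw [hTy] at hl'
      rcases hl' with e | e
      · exact absurd (e ▸ h.sub w hl) (h1 h3)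
      · exact e
    refine ⟨h4.antisymm ?_, h.mem_of_single h4⟩
    obtain ⟨l, hl⟩ := h.ne w
    have : l = j := h4 hl
    rw [← this]
    exact singleton_subset_iff.2 hl
  refine ⟨(own_or h g hy hJ hP).resolve_left hi, pair_arc h g hy hJ hP hi, hout, fun hj => ?_, ?_⟩
  · obtain ⟨w, ⟨hw1, hw2⟩, hw3⟩ := ((freq_touch hy).and_eventually hout).exists
    exact h.mx.notMem' (hw3 hw1).2 hw2 hj
  · have hiy : i ∈ T y := by rw [hTy]; exact Or.inl rfl
    obtain ⟨v, hv, hvJ⟩ := mem_nhdsWithin_iff_exists_mem_nhds_inter.1 hJ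
    have hij : i ≠ j := by
      rintro rfl
      have := h.mem_of_single (x := y) (i := i) (by rw [hTy]; simp)
      have hyX := (arc_XX h hJ hP).self_of_nhdsWithin hy
      exact hyX i this
    refine ((h.pure y i hiy).and_eventually (hout.and hv)).mono fun w hw => ?_
    obtain ⟨h1, h2, h3⟩ := hw
    refine ⟨?_, h1⟩
    rcases lt_trichotomy (dist w x) 1 with h4 | h4 | h4
    · exact h4
    · exfalso
      have h5 : T w = {i, j} := hvJ ⟨h3, h4⟩
      have h6 : j ∈ T w := by rw [h5]; exact Or.inr rfl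
      rw [h1] at h6
      exact hij h6.symm
    · exfalso
      have h6 := (h2 h4).1
      rw [h1] at h6
      exact hij (by simpa using h6)

end pair

end Vale.Agent.P032.H815
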