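import Vale.Agent.P032.S5.H483.Irr

/-!
# P032: generic maximal families

`Sol W` : open sets without unit distance, with dense union.  `Gen U` : every point of `XX U` is forced: for
every `x` in `XX U` and `r > 0` there are compact `K i ⊆ U i` such that no `W` with `Sol W`, `K i ⊆ W i`
covers the closed ball.  `exists_gen` : there is a maximal family with `Gen U`, as soon as there is one with
`Sol`.  `ess` : essential partners; if `q` is in `XX U` and all points of `XX U` near `q` have the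
colour `i`, then some point at distance one from `q` has the colour `i` (in `T`, not only in the closure
of `U i`).
-/

open Set Filter Topology Metric

noncomputable section

namespace Vale.Agent.P032.H815

open Vale.Agent.P032.Six

variable {k : ℕ}

/-- open sets without unit distance, with dense union -/
structure Sol (W : Fin k → Set ℂ) : Prop where
  isOpen : ∀ i, IsOpen (W i)
  free : ∀ i, ∀ x ∈ W i, ∀ y ∈ W i, dist x y ≠ 1
  dense : Dense (⋃ i, W i)

/-- every point in no `U i` is forced by compact parts of the `U i` -/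
def Gen (U : Fin k → Set ℂ) : Prop :=
  ∀ x ∈ XX U, ∀ r > 0, ∃ K : Fin k → Set ℂ, (∀ i, IsCompact (K i)) ∧ (∀ i, K i ⊆ U i) ∧
    ∀ W, Sol W → (∀ i, K i ⊆ W i) → ¬ closedBall x r ⊆ ⋃ i, W i

/-- extendable compact sets -/
structure Ext (K : Fin k → Set ℂ) : Prop where
  cpt : ∀ i, IsCompact (K i)
  ex : ∃ W, Sol W ∧ ∀ i, K i ⊆ W i

/-- one step -/
theorem step0 {K W : Fin k → Set ℂ} (hK : ∀ i, IsCompact (K i)) (hW : Sol W) (hKW : ∀ i, K i ⊆ W i)
    (c : ℂ) {r : ℝ} (hr : 0 < r) : ∃ K' : Fin k → Set ℂ, Ext K' ∧ (∀ i, K i ⊆ interior (K' i)) ∧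
      (∃ i, (interior (K' i) ∩ ball c r).Nonempty) ∧
      (closedBall c r ⊆ ⋃ i, W i → closedBall c r ⊆ ⋃ i, interior (K' i)) := by
  classical
  -- a point of some `W i0` in the ball
  obtain ⟨p, hp, hpb⟩ := hW.dense.exists_mem_open isOpen_ball (⟨c, mem_ball_self hr⟩ : (ball c r).Nonempty)
  obtain ⟨i0, hi0⟩ := mem_iUnion.1 hp
  -- compact pieces of the closed ball
  have hB : ∃ B : Fin k → Set ℂ, (∀ i, IsCompact (B i)) ∧ (∀ i, B i ⊆ W i) ∧
      (closedBall c r ⊆ ⋃ i, W i → closedBall c r ⊆ ⋃ i, B i) := by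
    by_cases hc : closedBall c r ⊆ ⋃ i, W i
    · obtain ⟨B, h1, h2, h3⟩ := (isCompact_closedBall c r).finite_compact_cover Finset.univ W
        (fun i _ => hW.isOpen i) (by simpa using hc)
      refine ⟨B, h1, h2, fun _ => ?_⟩
      rw [h3]
      simp
    · exact ⟨fun _ => ∅, fun _ => isCompact_empty, fun _ => empty_subset _, fun h => absurd h hc⟩
  obtain ⟨B, hB1, hB2, hB3⟩ := hB
  have hL : ∀ i, ∃ L, IsCompact L ∧ (K i ∪ B i ∪ (if i = i0 then {p} else ∅)) ⊆ interior L ∧ L ⊆ W i := by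
    intro i
    refine exists_compact_between (((hK i).union (hB1 i)).union ?_) (hW.isOpen i)
      (union_subset (union_subset (hKW i) (hB2 i)) ?_)
    · split_ifs
      · exact isCompact_singleton
      · exact isCompact_empty
    · split_ifs with h
      · rw [h]; exact singleton_subset_iff.2 hi0
      · exact empty_subset _
  choose L hL1 hL2 hL3 using hL
  refine ⟨L, ⟨hL1, W, hW, hL3⟩, fun i => ?_, ⟨i0, p, ?_, hpb⟩, fun hc => (hB3 hc).trans ?_⟩
  · exact (subset_union_left.trans subset_union_left).trans (hL2 i)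
  · refine hL2 i0 (Or.inr ?_)
    simp
  · exact iUnion_mono fun i => (subset_union_right.trans subset_union_left).trans (hL2 i)

/-- one step, best choice -/
theorem step {K : Fin k → Set ℂ} (hK : Ext K) (c : ℂ) {r : ℝ} (hr : 0 < r) :
    ∃ K' : Fin k → Set ℂ, Ext K' ∧ (∀ i, K i ⊆ interior (K' i)) ∧
      (∃ i, (interior (K' i) ∩ ball c r).Nonempty) ∧
      ((∃ W, Sol W ∧ (∀ i, K i ⊆ W i) ∧ closedBall c r ⊆ ⋃ i, W i) →
        closedBall c r ⊆ ⋃ i, interior (K' i)) := by
  by_cases hc : ∃ W, Sol W ∧ (∀ i, K i ⊆ W i) ∧ closedBall c r ⊆ ⋃ i, W i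
  · obtain ⟨W, hW, hKW, hcov⟩ := hc
    obtain ⟨K', h1, h2, h3, h4⟩ := step0 hK.cpt hW hKW c hr
    exact ⟨K', h1, h2, h3, fun _ => h4 hcov⟩
  · obtain ⟨W, hW, hKW⟩ := hK.ex
    obtain ⟨K', h1, h2, h3, -⟩ := step0 hK.cpt hW hKW c hr
    exact ⟨K', h1, h2, h3, fun h => absurd h hc⟩

/-- centres and radii -/
def cc (n : ℕ) : ℂ := TopologicalSpace.denseSeq ℂ n.unpair.1

/-- radii -/
def rr (n : ℕ) : ℝ := 1 / ((n.unpair.2 : ℝ) + 1)

theorem rr_pos (n : ℕ) : 0 < rr n := by unfold rr; positivity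

theorem exists_ball (x : ℂ) {r : ℝ} (hr : 0 < r) :
    ∃ n, x ∈ ball (cc n) (rr n) ∧ closedBall (cc n) (rr n) ⊆ ball x r := by
  obtain ⟨m, hm⟩ := exists_nat_one_div_lt (show 0 < r / 2 by positivity)
  have hpos : (0 : ℝ) < 1 / ((m : ℝ) + 1) := by positivity
  obtain ⟨l, hl⟩ := (TopologicalSpace.denseRange_denseSeq ℂ).exists_mem_open isOpen_ball
    (⟨x, mem_ball_self hpos⟩ : (ball x (1 / ((m : ℝ) + 1))).Nonempty)
  have h1 := mem_ball.1 hl
  refine ⟨Nat.pair l m, ?_, fun z hz => ?_⟩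
  · unfold cc rr
    rw [Nat.unpair_pair, mem_ball, dist_comm]
    exact h1
  · unfold cc rr at hz
    rw [Nat.unpair_pair, mem_closedBall] at hz
    rw [mem_ball]
    have h2 := dist_triangle z (TopologicalSpace.denseSeq ℂ l) x
    simp only at hz
    linarith

/-- the sequence of conditions -/
theorem exists_seq {W : Fin k → Set ℂ} (hW : Sol W) : ∃ K : ℕ → Fin k → Set ℂ,
    (∀ n, Ext (K n)) ∧ (∀ n i, K n i ⊆ interior (K (n + 1) i)) ∧
      (∀ n, ∃ i, (interior (K (n + 1) i) ∩ ball (cc n) (rr n)).Nonempty) ∧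
      ∀ n, (∃ W, Sol W ∧ (∀ i, K n i ⊆ W i) ∧ closedBall (cc n) (rr n) ⊆ ⋃ i, W i) →
        closedBall (cc n) (rr n) ⊆ ⋃ i, interior (K (n + 1) i) := by
  classical
  have h0 : Ext (fun _ : Fin k => (∅ : Set ℂ)) := ⟨fun _ => isCompact_empty, W, hW, fun _ => empty_subset _⟩
  let S : ℕ → {K : Fin k → Set ℂ // Ext K} := fun n => Nat.rec ⟨fun _ => ∅, h0⟩
    (fun n K => ⟨(step K.2 (cc n) (rr_pos n)).choose, (step K.2 (cc n) (rr_pos n)).choose_spec.1⟩) n
  have hS : ∀ n, (S (n + 1)).1 = (step (S n).2 (cc n) (rr_pos n)).choose := fun n => rfl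
  refine ⟨fun n => (S n).1, fun n => (S n).2, fun n i => ?_, fun n => ?_, fun n => ?_⟩
  · have := (step (S n).2 (cc n) (rr_pos n)).choose_spec.2.1 i
    rw [← hS] at this
    exact this
  · have := (step (S n).2 (cc n) (rr_pos n)).choose_spec.2.2.1
    rw [← hS] at this
    exact this
  · have := (step (S n).2 (cc n) (rr_pos n)).choose_spec.2.2.2
    rw [← hS] at this
    exact this

/-- **Existence of generic maximal families.** -/
theorem exists_gen {W : Fin k → Set ℂ} (hW : Sol W) : ∃ U : Fin k → Set ℂ, Mx U ∧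
    (∀ i x, (∀ y ∈ closure (U i), dist x y ≠ 1) → x ∈ U i) ∧ Gen U := by
  obtain ⟨K, hK, hKK, hKd, hKc⟩ := exists_seq hW
  have hmono : ∀ i, Monotone fun n => K n i := fun i =>
    monotone_nat_of_le_succ fun n => (hKK n i).trans interior_subset
  set V : Fin k → Set ℂ := fun i => ⋃ n, interior (K n i) with hV
  have hKV : ∀ n i, K n i ⊆ V i := fun n i => (hKK n i).trans
    (subset_iUnion (fun n => interior (K n i)) (n + 1))
  have hVo : ∀ i, IsOpen (V i) := fun i => isOpen_iUnion fun n => isOpen_interior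
  have hVf : ∀ i, ∀ x ∈ V i, ∀ y ∈ V i, dist x y ≠ 1 := by
    intro i x hx y hy
    obtain ⟨n, hn⟩ := mem_iUnion.1 hx
    obtain ⟨m, hm⟩ := mem_iUnion.1 hy
    obtain ⟨W', hW', hKW'⟩ := (hK (max n m)).ex
    exact hW'.free i x (hKW' i (hmono i (le_max_left n m) (interior_subset hn))) y
      (hKW' i (hmono i (le_max_right n m) (interior_subset hm)))
  have hVd : Dense (⋃ i, V i) := by
    rw [Metric.dense_iff]
    intro x r hr
    obtain ⟨n, -, hn⟩ := exists_ball x hr
    obtain ⟨i, p, hp, hpb⟩ := hKd n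
    exact ⟨p, hn (ball_subset_closedBall hpb), mem_iUnion.2 ⟨i, mem_iUnion.2 ⟨n + 1, hp⟩⟩⟩
  choose U hVU hU hmax using fun i => exists_maximal (V i) (hVo i) (hVf i)
  have hUd : Dense (⋃ i, U i) := hVd.mono (iUnion_mono hVU)
  refine ⟨U, Mx.of_max hU hUd hmax, fun i x hx => (hmax i x).2 hx, fun x hx r hr => ?_⟩
  obtain ⟨n, hxn, hn⟩ := exists_ball x hr
  refine ⟨K n, (hK n).cpt, fun i => (hKV n i).trans (hVU i), fun W' hW' hKW' hcov => ?_⟩
  have h1 := hKc n ⟨W', hW', hKW', (hn.trans ball_subset_closedBall).trans hcov⟩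
  obtain ⟨i, hi⟩ := mem_iUnion.1 (h1 (ball_subset_closedBall hxn))
  exact hx i (hVU i (hKV (n + 1) i (interior_subset hi)))

variable {U : Fin k → Set ℂ} {T : ℂ → Set (Fin k)}

/-- **Essential partners.** -/
theorem ess (h : Irr U T) (g : Gen U) {q : ℂ} {i : Fin k} (hq : q ∈ XX U)
    (hi : ∀ᶠ x in 𝓝 q, x ∈ XX U → i ∈ T x) : ∃ p, dist p q = 1 ∧ i ∈ T p := by
  by_contra hcon
  push Not at hcon
  -- the circle is far from `{x | i ∈ T x}`
  have hdisj : Disjoint (sphere q (1 : ℝ)) {x | i ∈ T x} := by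
    rw [Set.disjoint_left]
    exact fun y hy hiy => hcon y hy hiy
  obtain ⟨m, hm, hmd⟩ := hdisj.exists_thickenings (isCompact_sphere q 1) (h.closed i)
  obtain ⟨δ₀, hδ₀, hball⟩ := Metric.eventually_nhds_iff.1 hi
  -- the small radius
  set δ : ℝ := min (δ₀ / 2) (min (m / 4) (1 / 8)) with hδdef
  have hδ : 0 < δ := by positivity
  have hδ1 : δ < δ₀ := lt_of_le_of_lt (min_le_left _ _) (by linarith)
  have hδ2 : δ ≤ m / 4 := (min_le_right _ _).trans (min_le_left _ _)
  have hδ3 : δ ≤ 1 / 8 := (min_le_right _ _).trans (min_le_right _ _)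
  set X : Set ℂ := XX U ∩ closedBall q δ with hX
  have hXc : IsCompact X := (isCompact_closedBall q δ).inter_left h.mx.isClosed_XX
  have hXi : ∀ x ∈ X, i ∈ T x := fun x hx => hball (lt_of_le_of_lt (mem_closedBall.1 hx.2) hδ1) hx.1
  -- all points at distance one from `X`
  set S : Set ℂ := (fun p : ℂ × ℂ => p.1 + p.2) '' (X ×ˢ sphere (0 : ℂ) 1) with hS
  have hSc : IsCompact S := (hXc.prod (isCompact_sphere 0 1)).image (by fun_prop)
  have hSm : ∀ y, y ∈ S ↔ ∃ x ∈ X, dist y x = 1 := by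
    intro y
    constructor
    · rintro ⟨⟨x, v⟩, ⟨hx, hv⟩, rfl⟩
      refine ⟨x, hx, ?_⟩
      simp only
      rw [dist_eq_norm, add_sub_cancel_left, ← sub_zero v, ← dist_eq_norm]
      exact hv
    · rintro ⟨x, hx, hy⟩
      refine ⟨(x, y - x), ⟨hx, ?_⟩, by simp⟩
      rw [mem_sphere, dist_eq_norm, sub_zero, ← dist_eq_norm]
      exact hy
  have hSU : Disjoint S (U i) := by
    rw [Set.disjoint_left]
    intro y hy hyU
    obtain ⟨x, hx, hyx⟩ := (hSm y).1 hy
    exact h.mx.notMem (h.sub x (hXi x hx)) hyx hyU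
  obtain ⟨K, hKc, hKU, hK⟩ := g q hq δ hδ
  obtain ⟨η₀, hη₀, hηd⟩ := (hSU.mono_right (hKU i)).exists_thickenings hSc (hKc i).isClosed
  set η : ℝ := min (η₀ / 2) δ with hηdef
  have hη : 0 < η := by positivity
  have hη1 : η < η₀ := lt_of_le_of_lt (min_le_left _ _) (by linarith)
  have hη2 : η ≤ δ := min_le_right _ _
  set A : Set ℂ := cthickening η S with hA
  set N : Set ℂ := thickening η X with hN
  have hAK : Disjoint A (K i) := by
    refine (hηd.mono_left ?_).mono_right (self_subset_thickening hη₀ _)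
    exact cthickening_subset_thickening' hη₀ hη1 S
  -- points of `A`
  have hAm : ∀ y ∈ A, ∃ s x, dist y s ≤ η ∧ dist s x = 1 ∧ x ∈ XX U ∧ dist x q ≤ δ := by
    intro y hy
    rw [hA, hSc.cthickening_eq_biUnion_closedBall hη.le] at hy
    obtain ⟨s, hs, hys⟩ := mem_iUnion₂.1 hy
    obtain ⟨x, hx, hsx⟩ := (hSm s).1 hs
    exact ⟨s, x, hys, hsx, hx.1, hx.2⟩
  have hNm : ∀ y ∈ N, ∃ x ∈ X, dist y x < η := fun y hy => mem_thickening_iff.1 hy
  have hNA : ∀ x, ∀ y ∈ N, dist x y = 1 → x ∈ A := by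
    intro x y hy hxy
    obtain ⟨x', hx', hyx'⟩ := hNm y hy
    refine mem_cthickening_of_dist_le x (x + (x' - y)) η S ((hSm _).2 ⟨x', hx', ?_⟩) ?_
    · rw [dist_eq_norm, show x + (x' - y) - x' = x - y by ring, ← dist_eq_norm]; exact hxy
    · rw [dist_eq_norm, show x - (x + (x' - y)) = y - x' by ring, ← dist_eq_norm]; exact hyx'.le
  classical
  refine hK (fun j => if j = i then (U i \ A) ∪ N else U j) ⟨fun j => ?_, fun j x hx y hy => ?_, ?_⟩
    (fun j => ?_) fun y hy => ?_
  · split_ifs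
    · exact ((h.mx.isOpen i).sdiff isClosed_cthickening).union isOpen_thickening
    · exact h.mx.isOpen j
  · have hU1 : ∀ j, ∀ x ∈ U j, ∀ y ∈ U j, dist x y ≠ 1 := fun j x hx y hy =>
      h.mx.free j x hx y (subset_closure hy)
    split_ifs at hx hy with hji
    · rcases hx with hx | hx <;> rcases hy with hy | hy
      · exact hU1 i x hx.1 y hy.1
      · exact fun hxy => hx.2 (hNA x y hy hxy)
      · exact fun hxy => hy.2 (hNA y x hx (by rw [dist_comm]; exact hxy))
      · obtain ⟨x1, hx1, h1⟩ := hNm x hx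
        obtain ⟨y1, hy1, h2⟩ := hNm y hy
        have h3 := mem_closedBall.1 hx1.2
        have h4 := mem_closedBall.1 hy1.2
        have h5 := dist_triangle4 x x1 q y
        have h6 := dist_triangle q y1 y
        rw [dist_comm q y1, dist_comm y1 y] at h6
        intro h7
        linarith
    · exact hU1 j x hx y hy
  · -- density
    rw [Metric.dense_iff]
    intro x r hr
    obtain ⟨w, hw, hwr⟩ := h.mx.dense.exists_mem_open isOpen_ball
      (⟨x, mem_ball_self hr⟩ : (ball x r).Nonempty)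
    obtain ⟨j, hj⟩ := mem_iUnion.1 hw
    by_cases hji : j = i
    · subst hji
      by_cases hwA : w ∈ A
      · obtain ⟨s, x1, h1, h2, h3, h4⟩ := hAm w hwA
        have hiw : j ∉ T w := by
          intro hjw
          refine Set.disjoint_left.1 hmd (mem_thickening_iff.2 ⟨s + (q - x1), ?_, ?_⟩)
            (self_subset_thickening hm _ hjw)
          · rw [mem_sphere, dist_eq_norm, show s + (q - x1) - q = s - x1 by ring, ← dist_eq_norm]
            exact h2
          · have h5 := dist_triangle w s (s + (q - x1))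
            have h6 : dist s (s + (q - x1)) = dist x1 q := by
              rw [dist_eq_norm, dist_eq_norm]; congr 1; ring
            linarith
        obtain ⟨j', hj'⟩ := h.ne w
        have hne : j' ≠ j := fun h5 => hiw (h5 ▸ hj')
        obtain ⟨w', hw', hw'r⟩ := ((h.pure w j' hj').and_eventually (isOpen_ball.mem_nhds hwr)).exists
        refine ⟨w', hw'r, mem_iUnion.2 ⟨j', ?_⟩⟩
        simp only [if_neg hne]
        exact h.mem_of_single hw'.le
      · refine ⟨w, hwr, mem_iUnion.2 ⟨j, ?_⟩⟩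
        simp only [if_true]
        exact Or.inl ⟨hj, hwA⟩
    · refine ⟨w, hwr, mem_iUnion.2 ⟨j, ?_⟩⟩
      simp only [if_neg hji]
      exact hj
  · show K j ⊆ if j = i then (U i \ A) ∪ N else U j
    split_ifs with hji
    · subst hji
      exact fun y hy => Or.inl ⟨hKU j hy, fun hyA => Set.disjoint_left.1 hAK hyA hy⟩
    · exact hKU j
  · by_cases hyX : y ∈ XX U
    · refine mem_iUnion.2 ⟨i, ?_⟩
      simp only [if_true]
      exact Or.inr (self_subset_thickening hη _ ⟨hyX, hy⟩)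
    · have h1 : ∃ j, y ∈ U j := by simpa [XX] using hyX
      obtain ⟨j, hj⟩ := h1
      refine mem_iUnion.2 ⟨j, ?_⟩
      by_cases hji : j = i
      · subst hji
        simp only [if_true]
        refine Or.inl ⟨hj, fun hyA => ?_⟩
        obtain ⟨s, x1, h1, h2, h3, h4⟩ := hAm y hyA
        have h5 := mem_closedBall.1 hy
        have h6 := dist_triangle4 s y q x1
        rw [dist_comm s y, dist_comm q x1] at h6
        linarith
      · simp only [if_neg hji]
        exact hj

end Vale.Agent.P032.H815
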